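import Vale.Agent.P181.ST.Defs
import Vale.Agent.P181.GN.H312.Q4a
import Vale.Agent.P181.SZR1b.Dim

set_option autoImplicit false
set_option linter.all false

/-!
# P181, ST [T1] (helper742), part 1: no column of degree one (helper312's `one_zero'`)
-/

open MvPolynomial

namespace Vale.Agent.P181.ST.H742

open Vale.Agent.P181.T4 (HW rowOp rowOp_apply)
open Vale.Agent.P181.GN.H312 (cs top_zero)

variable {k n : ℕ}

lemma cs_add {m : ℕ} {σ : Type} (u v : Fin m × σ →₀ ℕ) (j : σ) :
    cs (u + v) j = cs u j + cs v j := by
  unfold cs
  rw [← Finset.sum_add_distrib]
  rfl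

lemma cs_single {m : ℕ} {σ : Type} [DecidableEq σ] (i : Fin m) (j j' : σ) :
    cs (Finsupp.single (i, j) 1 : Fin m × σ →₀ ℕ) j' = if j' = j then 1 else 0 := by
  unfold cs
  by_cases hj : j' = j
  · subst hj
    rw [if_pos rfl, Finset.sum_eq_single i]
    · rw [Finsupp.single_eq_same]
    · intro k _ hk
      apply Finsupp.single_eq_of_ne
      intro e
      exact hk (congrArg Prod.fst e)
    · intro hcon
      exact absurd (Finset.mem_univ _) hcon
  · rw [if_neg hj]
    apply Finset.sum_eq_zero
    intro k _
    apply Finsupp.single_eq_of_ne
    intro e
    exact hj (congrArg Prod.snd e)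

lemma sub_add_single {m : ℕ} {σ : Type} (w : Fin m × σ →₀ ℕ) (p : Fin m × σ) (h : w p ≠ 0) :
    w - Finsupp.single p 1 + Finsupp.single p 1 = w := by
  classical
  ext q
  simp only [Finsupp.add_apply, Finsupp.tsub_apply]
  by_cases hq : q = p
  · subst hq
    rw [Finsupp.single_eq_same]
    omega
  · rw [Finsupp.single_eq_of_ne hq]
    omega

/-- The exponents which are kept. -/
def good (w : Fin (k + 1) × Option (Fin n) →₀ ℕ) : Prop :=
  (∀ i : Fin k, w (i.succ, none) = 0) ∧ ∀ j : Fin n, cs w (some j) ≠ 1

lemma oinj (e : Equiv.Perm (Fin n)) :
    Function.Injective (fun p : Fin (k + 1) × Option (Fin n) => (p.1, p.2.map e)) := by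
  intro p q hpq
  simp only [Prod.mk.injEq] at hpq
  exact Prod.ext hpq.1 (Option.map_injective e.injective hpq.2)

/-- Symmetry for the coefficients. -/
lemma coeff_sym (f : MvPolynomial (Fin (k + 1) × Option (Fin n)) ℂ)
    (hsym : ∀ e : Equiv.Perm (Fin n),
        rename (fun p : Fin (k + 1) × Option (Fin n) => (p.1, p.2.map e)) f = f)
    (e : Equiv.Perm (Fin n)) (v : Fin (k + 1) × Option (Fin n) →₀ ℕ) :
    coeff (v.mapDomain (fun p : Fin (k + 1) × Option (Fin n) => (p.1, p.2.map e))) f =
      coeff v f := by
  conv_lhs => rw [← hsym e]
  exact coeff_rename_mapDomain _ (oinj e) _ _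

/-- Columns of degree one, with a spectator column (helper312). -/
theorem one_zero' (f : MvPolynomial (Fin (k + 1) × Option (Fin n)) ℂ)
    (hsym : ∀ e : Equiv.Perm (Fin n),
        rename (fun p : Fin (k + 1) × Option (Fin n) => (p.1, p.2.map e)) f = f)
    (ht : ∀ i, ∑ j : Fin n, pderiv (i, some j) f = 0)
    (h0 : ∀ v : Fin (k + 1) × Option (Fin n) →₀ ℕ, good v → coeff v f = 0) :
    ∀ v : Fin (k + 1) × Option (Fin n) →₀ ℕ, (∀ i : Fin k, v (i.succ, none) = 0) →
      coeff v f = 0 := by
  classical
  have hsw := coeff_sym f hsym
  have main : ∀ (s : ℕ) (v : Fin (k + 1) × Option (Fin n) →₀ ℕ),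
      (∀ i : Fin k, v (i.succ, none) = 0) →
      (Finset.univ.filter (fun j : Fin n => cs v (some j) = 1)).card = s → coeff v f = 0 := by
    intro s
    induction s using Nat.strong_induction_on with
    | _ s ih =>
      intro v hvn hv
      by_cases hall : ∀ j : Fin n, cs v (some j) ≠ 1
      · exact h0 v ⟨hvn, hall⟩
      push Not at hall
      obtain ⟨c, hc⟩ := hall
      obtain ⟨i, hi⟩ : ∃ i, v (i, some c) ≠ 0 := by
        by_contra hcon
        push Not at hcon
        unfold cs at hc
        rw [Finset.sum_eq_zero (fun i _ => hcon i)] at hc
        omega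
      obtain ⟨w, hwdef⟩ : ∃ w, w = v - Finsupp.single (i, some c) 1 := ⟨_, rfl⟩
      have hw : w + Finsupp.single (i, some c) 1 = v := by
        rw [hwdef]
        exact sub_add_single v (i, some c) hi
      have hcsadd : ∀ j j' : Fin n, cs (w + Finsupp.single (i, some j) 1) (some j') =
          cs w (some j') + if j' = j then 1 else 0 := by
        intro j j'
        rw [cs_add, cs_single]
        simp only [Option.some_inj]
      have hvc : ∀ j', cs v (some j') = cs w (some j') + if j' = c then 1 else 0 := by
        intro j'
        rw [← hw]
        exact hcsadd c j'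
      have hwc : cs w (some c) = 0 := by
        have := hvc c
        rw [if_pos rfl, hc] at this
        omega
      have hwn : ∀ (j : Fin n) (i' : Fin k),
          (w + Finsupp.single (i, some j) 1 : Fin (k + 1) × Option (Fin n) →₀ ℕ)
            (i'.succ, none) = 0 := by
        intro j i'
        have h1 := hvn i'
        rw [← hw, Finsupp.add_apply] at h1
        rw [Finsupp.add_apply, Finsupp.single_eq_of_ne (by simp)]
        omega
      have h1 : coeff w (∑ j : Fin n, pderiv (i, some j) f) = 0 := by rw [ht i, coeff_zero]
      rw [coeff_sum] at h1
      have h2 : ∀ j : Fin n, coeff w (pderiv (i, some j) f) =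
          if cs w (some j) = 0 then coeff v f else 0 := by
        intro j
        rw [coeff_pderiv]
        by_cases hj : cs w (some j) = 0
        · rw [if_pos hj]
          have hz : ∀ k, w (k, some j) = 0 := fun k =>
            (Finset.sum_eq_zero_iff.1 hj) k (Finset.mem_univ k)
          have hz' : ∀ k, w (k, some c) = 0 := fun k =>
            (Finset.sum_eq_zero_iff.1 hwc) k (Finset.mem_univ k)
          rw [hz i, Nat.cast_zero, zero_add, mul_one]
          rw [← hsw (Equiv.swap j c) (w + Finsupp.single (i, some j) 1)]
          congr 1
          rw [Finsupp.mapDomain_add, Finsupp.mapDomain_single]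
          simp only [Option.map_some, Equiv.swap_apply_left]
          rw [← hw]
          congr 1
          have hfix : ∀ p ∈ w.support,
              ((p.1, p.2.map (Equiv.swap j c)) : Fin (k + 1) × Option (Fin n)) = p := by
            rintro ⟨p1, p2⟩ hp
            have hp' := Finsupp.mem_support_iff.1 hp
            rcases p2 with _ | p2
            · rfl
            · have e1 : p2 ≠ j := by
                intro e
                apply hp'
                rw [e]
                exact hz p1
              have e2 : p2 ≠ c := by
                intro e
                apply hp'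
                rw [e]
                exact hz' p1
              simp only [Option.map_some, Equiv.swap_apply_of_ne_of_ne e1 e2]
          rw [Finsupp.mapDomain_congr (g := id) (fun p hp => hfix p hp), Finsupp.mapDomain_id]
        · rw [if_neg hj]
          have hlt : (Finset.univ.filter
              (fun j' : Fin n => cs (w + Finsupp.single (i, some j) 1) (some j') = 1)).card <
              s := by
            rw [← hv]
            apply Finset.card_lt_card
            rw [Finset.ssubset_iff_of_subset]
            · refine ⟨c, ?_, ?_⟩
              · simp [hc]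
              · simp only [Finset.mem_filter, Finset.mem_univ, true_and]
                rw [hcsadd, hwc]
                by_cases hcj : c = j
                · subst hcj
                  exact absurd hwc hj
                · rw [if_neg hcj]
                  omega
            · intro j' hj'
              simp only [Finset.mem_filter, Finset.mem_univ, true_and] at hj' ⊢
              rw [hcsadd] at hj'
              rw [hvc]
              by_cases h3 : j' = j
              · rw [if_pos h3] at hj'
                exfalso
                apply hj
                rw [← h3]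
                omega
              · rw [if_neg h3] at hj'
                by_cases h4 : j' = c
                · rw [h4, hwc] at hj'
                  omega
                · rw [if_neg h4]
                  exact hj'
          rw [ih _ hlt _ (hwn j) rfl, zero_mul]
      rw [Finset.sum_congr rfl (fun j _ => h2 j), Finset.sum_ite, Finset.sum_const_zero, add_zero,
        Finset.sum_const, nsmul_eq_mul] at h1
      refine (mul_eq_zero.1 h1).resolve_left (Nat.cast_ne_zero.2 ?_)
      apply Finset.card_ne_zero_of_mem (a := c)
      simp [hwc]
  intro v hv
  exact main _ v hv rfl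

end Vale.Agent.P181.ST.H742
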