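import Vale.Agent.P181.ST.H742.Col1
import Vale.Agent.P181.ST.H613.Ops

set_option autoImplicit false
set_option linter.all false

/-!
# P181, ST [T1] (helper742): the upper bound

The coefficient of `x_(0,none) ^ n ∏ j, x_(0,j) ^ i_j`, component of the degrees `d_j` in the
rows `≥ 1`.
-/

open MvPolynomial

namespace Vale.Agent.P181.ST.H742

open Vale.Agent.P181.T4 (HW rowOp rowOp_apply)
open Vale.Agent.P181.GN.H312 (cs top_zero)
open Vale.Agent.P181.SZ (tl)
open Vale.Agent.P181.SZ.R1b (cmp coeff_cmp cmp_rowOp cdeg rename_cmp pm pm_apply pm_apply'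
  coeff_pm coeff_rowOp pm_pm_symm exists_perm_of_map_eq)
open Vale.Agent.P181.TW (PX mem_PX NX)

variable {m t : ℕ}

/-- The exponents with the column `none` equal to `n` in row `0`, first row `d`, other rows `u`. -/
noncomputable def ex1 (n : ℕ) (d : Fin t → ℕ) (u : Fin m × Fin t →₀ ℕ) :
    Fin (m + 1) × Option (Fin t) →₀ ℕ :=
  Finsupp.equivFunOnFinite.symm fun p =>
    Fin.cases (motive := fun _ => ℕ) (Option.elim p.2 n d)
      (fun i => Option.elim p.2 0 fun j => u (i, j)) p.1

lemma ex1_zero_none (n : ℕ) (d : Fin t → ℕ) (u : Fin m × Fin t →₀ ℕ) :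
    ex1 n d u (0, none) = n := rfl

lemma ex1_zero_some (n : ℕ) (d : Fin t → ℕ) (u : Fin m × Fin t →₀ ℕ) (j : Fin t) :
    ex1 n d u (0, some j) = d j := rfl

lemma ex1_succ_none (n : ℕ) (d : Fin t → ℕ) (u : Fin m × Fin t →₀ ℕ) (i : Fin m) :
    ex1 n d u (i.succ, none) = 0 := rfl

lemma ex1_succ_some (n : ℕ) (d : Fin t → ℕ) (u : Fin m × Fin t →₀ ℕ) (i : Fin m) (j : Fin t) :
    ex1 n d u (i.succ, some j) = u (i, j) := rfl

/-- The rows `≥ 1`. -/
noncomputable def res1 (v : Fin (m + 1) × Option (Fin t) →₀ ℕ) : Fin m × Fin t →₀ ℕ :=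
  Finsupp.equivFunOnFinite.symm fun p => v (p.1.succ, some p.2)

lemma res1_apply (v : Fin (m + 1) × Option (Fin t) →₀ ℕ) (i : Fin m) (j : Fin t) :
    res1 v (i, j) = v (i.succ, some j) := rfl

lemma res1_ex1 (n : ℕ) (d : Fin t → ℕ) (u : Fin m × Fin t →₀ ℕ) : res1 (ex1 n d u) = u := by
  ext ⟨i, j⟩
  rfl

/-- The exponents which are read. -/
def Rd (n : ℕ) (d : Fin t → ℕ) (v : Fin (m + 1) × Option (Fin t) →₀ ℕ) : Prop :=
  v (0, none) = n ∧ (∀ j, v (0, some j) = d j) ∧ ∀ i : Fin m, v (i.succ, none) = 0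

lemma rd_ex1 (n : ℕ) (d : Fin t → ℕ) (u : Fin m × Fin t →₀ ℕ) : Rd n d (ex1 n d u) :=
  ⟨rfl, fun _ => rfl, fun _ => rfl⟩

lemma ex1_res1 {n : ℕ} {d : Fin t → ℕ} {v : Fin (m + 1) × Option (Fin t) →₀ ℕ}
    (h : Rd n d v) : ex1 n d (res1 v) = v := by
  ext ⟨i, j⟩
  refine Fin.cases ?_ (fun i => ?_) i
  · rcases j with _ | j
    · exact h.1.symm
    · exact (h.2.1 j).symm
  · rcases j with _ | j
    · exact (h.2.2 i).symm
    · rfl

open scoped Classical in
/-- The coefficient. -/
noncomputable def cz (n : ℕ) (d : Fin t → ℕ) :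
    MvPolynomial (Fin (m + 1) × Option (Fin t)) ℂ →ₗ[ℂ] MvPolynomial (Fin m × Fin t) ℂ :=
  (basisMonomials (Fin (m + 1) × Option (Fin t)) ℂ).constr ℂ
    fun v => if Rd n d v then monomial (res1 v) 1 else 0

open scoped Classical in
lemma cz_monomial (n : ℕ) (d : Fin t → ℕ) (v : Fin (m + 1) × Option (Fin t) →₀ ℕ) (c : ℂ) :
    cz n d (monomial v c) = if Rd n d v then monomial (res1 v) c else 0 := by
  have h : (monomial v c : MvPolynomial (Fin (m + 1) × Option (Fin t)) ℂ) =
      c • basisMonomials (Fin (m + 1) × Option (Fin t)) ℂ v := by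
    rw [coe_basisMonomials, smul_monomial, smul_eq_mul, mul_one]
  rw [h, map_smul, cz, Module.Basis.constr_basis]
  split_ifs
  · rw [smul_monomial, smul_eq_mul, mul_one]
  · rw [smul_zero]

lemma coeff_cz (n : ℕ) (d : Fin t → ℕ) (f : MvPolynomial (Fin (m + 1) × Option (Fin t)) ℂ)
    (u : Fin m × Fin t →₀ ℕ) : coeff u (cz n d f) = coeff (ex1 n d u) f := by
  classical
  induction f using MvPolynomial.induction_on' with
  | monomial v c =>
    rw [cz_monomial, coeff_monomial]
    by_cases h : v = ex1 n d u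
    · subst h
      rw [if_pos (rd_ex1 n d u), if_pos rfl, coeff_monomial, if_pos (res1_ex1 n d u)]
    · rw [if_neg h]
      split_ifs with h1
      · rw [coeff_monomial, if_neg]
        intro h2
        apply h
        rw [← h2, ex1_res1 h1]
      · rw [coeff_zero]
  | add p q hp hq => rw [map_add, coeff_add, coeff_add, hp, hq]

lemma ex1_shift (n : ℕ) (d : Fin t → ℕ) (u : Fin m × Fin t →₀ ℕ) (s i : Fin m) (j : Fin t) :
    ex1 n d (u - Finsupp.single (s, j) 1 + Finsupp.single (i, j) 1) =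
      ex1 n d u - Finsupp.single (s.succ, some j) 1 + Finsupp.single (i.succ, some j) 1 := by
  classical
  ext ⟨l, j'⟩
  refine Fin.cases ?_ (fun l => ?_) l
  · rw [Finsupp.add_apply, Finsupp.tsub_apply, Finsupp.single_apply,
      Finsupp.single_apply, if_neg, if_neg]
    · rcases j' with _ | j' <;> rfl
    · intro h
      exact absurd (congrArg Prod.fst h) (Fin.succ_ne_zero i)
    · intro h
      exact absurd (congrArg Prod.fst h) (Fin.succ_ne_zero s)
  · rcases j' with _ | j'
    · rw [Finsupp.add_apply, Finsupp.tsub_apply, ex1_succ_none, ex1_succ_none,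
        Finsupp.single_eq_of_ne (by simp), Finsupp.single_eq_of_ne (by simp)]
      rfl
    · rw [ex1_succ_some, Finsupp.add_apply, Finsupp.tsub_apply, Finsupp.add_apply,
        Finsupp.tsub_apply, ex1_succ_some]
      simp only [Finsupp.single_apply, Prod.mk.injEq, Fin.succ_inj, Option.some_inj]

lemma rowOp_cz (n : ℕ) (d : Fin t → ℕ) (s i : Fin m)
    (f : MvPolynomial (Fin (m + 1) × Option (Fin t)) ℂ) :
    rowOp s i (cz n d f) = cz n d (rowOp s.succ i.succ f) := by
  classical
  apply MvPolynomial.ext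
  intro u
  rw [coeff_cz, coeff_rowOp, coeff_rowOp, Fintype.sum_option, ex1_succ_none, if_pos rfl, zero_add]
  refine Finset.sum_congr rfl fun j _ => ?_
  rw [ex1_succ_some]
  by_cases h : u (s, j) = 0
  · rw [if_pos h, if_pos h]
  · rw [if_neg h, if_neg h, coeff_cz, ex1_shift]
    have h1 : (u - Finsupp.single (s, j) 1 : Fin m × Fin t →₀ ℕ) (i, j) =
        (ex1 n d u - Finsupp.single (s.succ, some j) 1 :
          Fin (m + 1) × Option (Fin t) →₀ ℕ) (i.succ, some j) := by
      rw [Finsupp.tsub_apply, Finsupp.tsub_apply, ex1_succ_some]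
      simp only [Finsupp.single_apply, Prod.mk.injEq, Fin.succ_inj, Option.some_inj]
    rw [h1]

lemma ex1_pm (n : ℕ) (d : Fin t → ℕ) (e : Equiv.Perm (Fin t)) (hd : ∀ j, d (e j) = d j)
    (u : Fin m × Fin t →₀ ℕ) : ex1 n d (pm e u) =
      (ex1 n d u).mapDomain
        (fun p : Fin (m + 1) × Option (Fin t) => (p.1, p.2.map e)) := by
  ext ⟨i, c⟩
  rcases c with _ | c
  · have h3 := Finsupp.mapDomain_apply (oinj e) (ex1 n d u) (i, none)
    refine Eq.trans ?_ h3.symm
    refine Fin.cases rfl (fun i => rfl) i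
  · obtain ⟨c', rfl⟩ := e.surjective c
    have h3 := Finsupp.mapDomain_apply (oinj e) (ex1 n d u) (i, some c')
    refine Eq.trans ?_ h3.symm
    refine Fin.cases ?_ (fun i => ?_) i
    · exact hd c'
    · exact pm_apply e u i c'

lemma rename_cz (n : ℕ) (d : Fin t → ℕ) (f : MvPolynomial (Fin (m + 1) × Option (Fin t)) ℂ)
    (hsym : ∀ e : Equiv.Perm (Fin t),
        rename (fun p : Fin (m + 1) × Option (Fin t) => (p.1, p.2.map e)) f = f)
    (e : Equiv.Perm (Fin t)) (hd : ∀ j, d (e j) = d j) :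
    rename (fun p : Fin m × Fin t => (p.1, e p.2)) (cz n d f) = cz n d f := by
  apply MvPolynomial.ext
  intro u
  have h1 := coeff_pm e (cz n d f) (pm e.symm u)
  rw [pm_pm_symm] at h1
  rw [h1, coeff_cz, coeff_cz]
  have h2 := coeff_sym f hsym e (ex1 n d (pm e.symm u))
  rw [← ex1_pm n d e hd, pm_pm_symm] at h2
  exact h2.symm

/-- The component of labels `lab`. -/
noncomputable def cL (n : ℕ) (lab : Fin t → ℕ × ℕ) :
    MvPolynomial (Fin (m + 1) × Option (Fin t)) ℂ →ₗ[ℂ] MvPolynomial (Fin m × Fin t) ℂ :=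
  (cmp fun j => (lab j).2).comp (cz n fun j => (lab j).1)

lemma cL_mem {n : ℕ} {mu : Fin (m + 1) → ℕ} {f : MvPolynomial (Fin (m + 1) × Option (Fin t)) ℂ}
    (hf : f ∈ PX (m + 1) n t mu) (lab : Fin t → ℕ × ℕ) :
    cL n lab f ∈ GP m (Fin t) lab (tl mu) := by
  classical
  obtain ⟨⟨h1, h2⟩, h3, h4, -⟩ := mem_PX.1 hf
  have hc : ∀ u : Fin m × Fin t →₀ ℕ, coeff u (cL n lab f) =
      if cdeg u = (fun j => (lab j).2) then coeff (ex1 n (fun j => (lab j).1) u) f else 0 := by
    intro u
    rw [cL, LinearMap.comp_apply, coeff_cmp, coeff_cz]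
  refine mem_GP.2 ⟨⟨fun v hv i => ?_, fun s i hsi => ?_⟩, fun v hv j => ?_, fun e he => ?_⟩
  · rw [hc] at hv
    by_cases h : cdeg v = (fun j => (lab j).2)
    · rw [if_pos h] at hv
      have h5 := h1 _ hv i.succ
      rw [Fintype.sum_option, ex1_succ_none, zero_add] at h5
      exact h5
    · rw [if_neg h] at hv
      exact absurd rfl hv
  · rw [cL, LinearMap.comp_apply, cmp_rowOp, rowOp_cz,
      h2 s.succ i.succ (Fin.succ_lt_succ_iff.2 hsi), map_zero, map_zero]
  · rw [hc] at hv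
    by_cases h : cdeg v = (fun j => (lab j).2)
    · exact congrFun h j
    · rw [if_neg h] at hv
      exact absurd rfl hv
  · rw [cL, LinearMap.comp_apply]
    exact rename_cmp e _ (fun j => by rw [he j]) _
      (rename_cz n _ f h4 e (fun j => by rw [he j]))

/-- The labels of the nonzero columns. -/
def lbs (L : Fin t → ℕ × ℕ) : Multiset (ℕ × ℕ) :=
  ((Finset.univ : Finset (Fin t)).val.map L).filter fun x => 0 < x.1 + x.2

lemma lbs_add (L : Fin t → ℕ × ℕ) :
    (Finset.univ : Finset (Fin t)).val.map L =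
      Multiset.replicate (t - Multiset.card (lbs L)) (0, 0) + lbs L := by
  have h2 := Multiset.filter_add_not (fun x : ℕ × ℕ => 0 < x.1 + x.2)
    ((Finset.univ : Finset (Fin t)).val.map L)
  have h3 : ((Finset.univ : Finset (Fin t)).val.map L).filter
      (fun x : ℕ × ℕ => ¬ (0 < x.1 + x.2)) =
      Multiset.replicate (t - Multiset.card (lbs L)) (0, 0) := by
    rw [Multiset.eq_replicate]
    constructor
    · have h4 := congrArg Multiset.card h2
      rw [Multiset.card_add, Multiset.card_map] at h4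
      have h5 : Multiset.card (Finset.univ : Finset (Fin t)).val = t := Finset.card_fin t
      rw [h5] at h4
      unfold lbs
      omega
    · intro w hw
      have := (Multiset.mem_filter.1 hw).2
      exact Prod.ext (by omega) (by omega)
  rw [← h3, add_comm]
  exact h2.symm

lemma card_lbs_le (L : Fin t → ℕ × ℕ) : Multiset.card (lbs L) ≤ t := by
  have h1 : Multiset.card ((Finset.univ : Finset (Fin t)).val.map L) = t := by
    rw [Multiset.card_map]
    exact Finset.card_fin t
  exact (Multiset.card_le_card (Multiset.filter_le _ _)).trans h1.le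

lemma exists_lab (P : Multiset (ℕ × ℕ)) (hk : Multiset.card P ≤ t) :
    ∃ lab : Fin t → ℕ × ℕ, (Finset.univ : Finset (Fin t)).val.map lab =
      Multiset.replicate (t - Multiset.card P) (0, 0) + P := by
  obtain ⟨l, hl⟩ : ∃ l : List (ℕ × ℕ), (l : Multiset (ℕ × ℕ)) =
      Multiset.replicate (t - Multiset.card P) (0, 0) + P := Quot.exists_rep _
  have hlen : l.length = t := by
    have h1 := congrArg Multiset.card hl
    rw [Multiset.coe_card, Multiset.card_add, Multiset.card_replicate] at h1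
    omega
  subst hlen
  refine ⟨l.get, ?_⟩
  rw [Fin.univ_val_map, List.ofFn_get, hl]

lemma mem_LT_iff {I J : ℕ} {P : Multiset (ℕ × ℕ)} : P ∈ LT I J ↔
    (∀ x ∈ P, 2 ≤ x.1 + x.2) ∧ (P.map Prod.fst).sum = I ∧ (P.map Prod.snd).sum = J := by
  classical
  unfold LT
  rw [Finset.mem_filter, Multiset.mem_toFinset, Multiset.mem_powerset]
  refine ⟨fun h => h.2, fun h => ⟨?_, h⟩⟩
  obtain ⟨h1, h2, h3⟩ := h
  have hx : ∀ x ∈ P, x.1 ≤ I ∧ x.2 ≤ J := by
    intro x hx
    refine ⟨?_, ?_⟩
    · rw [← h2]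
      exact Multiset.single_le_sum (fun _ _ => Nat.zero_le _) _ (Multiset.mem_map_of_mem _ hx)
    · rw [← h3]
      exact Multiset.single_le_sum (fun _ _ => Nat.zero_le _) _ (Multiset.mem_map_of_mem _ hx)
  have hcard : Multiset.card P ≤ I + J := by
    have h4 : ((P.map fun x => x.1 + x.2)).sum = I + J := by
      rw [Multiset.sum_map_add, h2, h3]
    have h5 : Multiset.card P • 1 ≤ (P.map fun x => x.1 + x.2).sum := by
      have := Multiset.card_nsmul_le_sum (s := P.map fun x => x.1 + x.2) (a := 1) (by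
        intro y hy
        obtain ⟨x, hx, rfl⟩ := Multiset.mem_map.1 hy
        have := h1 x hx
        omega)
      rwa [Multiset.card_map] at this
    rw [h4, smul_eq_mul, mul_one] at h5
    exact h5
  rw [Multiset.le_iff_count]
  intro x
  by_cases hxP : x ∈ P
  · rw [Multiset.count_nsmul]
    have h6 : Multiset.count x (Finset.range (I + 1) ×ˢ Finset.range (J + 1)).val = 1 := by
      rw [Multiset.count_eq_one_of_mem (Finset.nodup _)]
      rw [Finset.mem_val, Finset.mem_product, Finset.mem_range, Finset.mem_range]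
      have := hx x hxP
      omega
    rw [h6, mul_one]
    exact (Multiset.count_le_card x P).trans hcard
  · rw [Multiset.count_eq_zero_of_notMem hxP]
    exact Nat.zero_le _

lemma sum_lbs_fst (L : Fin t → ℕ × ℕ) : ((lbs L).map Prod.fst).sum = ∑ j, (L j).1 := by
  have h := congrArg (fun s => (Multiset.map Prod.fst s).sum) (lbs_add L)
  simp only [Multiset.map_add, Multiset.sum_add, Multiset.map_replicate, Multiset.sum_replicate,
    smul_zero, zero_add, Multiset.map_map] at h
  exact h.symm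

lemma sum_lbs_snd (L : Fin t → ℕ × ℕ) : ((lbs L).map Prod.snd).sum = ∑ j, (L j).2 := by
  have h := congrArg (fun s => (Multiset.map Prod.snd s).sum) (lbs_add L)
  simp only [Multiset.map_add, Multiset.sum_add, Multiset.map_replicate, Multiset.sum_replicate,
    smul_zero, zero_add, Multiset.map_map] at h
  exact h.symm

/-- The label of a column. -/
def lbl (w : Fin (m + 1) × Option (Fin t) →₀ ℕ) (j : Fin t) : ℕ × ℕ :=
  (w (0, some j), ∑ i : Fin m, w (i.succ, some j))

lemma lbl_cs (w : Fin (m + 1) × Option (Fin t) →₀ ℕ) (j : Fin t) :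
    (lbl w j).1 + (lbl w j).2 = cs w (some j) := by
  unfold lbl cs
  rw [Fin.sum_univ_succ]

theorem upG_of (h0 : Trans) (h4 : Pure) : UpG := by
  classical
  intro m n t mu
  -- the good exponents
  have hgood : ∀ f ∈ PX (m + 1) n t mu, ∀ w : Fin (m + 1) × Option (Fin t) →₀ ℕ, good w →
      coeff w f ≠ 0 → w (0, none) = n ∧ n ≤ mu 0 ∧
        lbs (lbl w) ∈ LT (mu 0 - n) (∑ i, tl mu i) := by
    intro f hf w hg hw
    obtain ⟨⟨h1, -⟩, h3, -, -⟩ := mem_PX.1 hf
    have h5 := h3 w hw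
    rw [Fin.sum_univ_succ, Finset.sum_eq_zero (fun i _ => hg.1 i), add_zero] at h5
    have h6 := h1 w hw 0
    rw [Fintype.sum_option, h5] at h6
    have h7 : ∑ j : Fin t, (lbl w j).1 = mu 0 - n := by
      show ∑ j : Fin t, w (0, some j) = mu 0 - n
      omega
    have h8 : ∑ j : Fin t, (lbl w j).2 = ∑ i, tl mu i := by
      show ∑ j : Fin t, ∑ i : Fin m, w (i.succ, some j) = ∑ i, tl mu i
      rw [Finset.sum_comm]
      refine Finset.sum_congr rfl fun i _ => ?_
      have h9 := h1 w hw i.succ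
      rw [Fintype.sum_option, hg.1 i, zero_add] at h9
      exact h9
    refine ⟨h5, by omega, mem_LT_iff.2 ⟨?_, ?_, ?_⟩⟩
    · intro x hx
      obtain ⟨hx1, hx2⟩ := Multiset.mem_filter.1 hx
      obtain ⟨j, -, rfl⟩ := Multiset.mem_map.1 hx1
      rw [lbl_cs] at hx2 ⊢
      have := hg.2 j
      omega
    · rw [sum_lbs_fst, h7]
    · rw [sum_lbs_snd, h8]
  have hzero : ∀ f ∈ PX (m + 1) n t mu,
      (∀ w : Fin (m + 1) × Option (Fin t) →₀ ℕ, good w → coeff w f = 0) → f = 0 := by
    intro f hf h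
    obtain ⟨⟨h1, h2⟩, h3, hs, ht⟩ := mem_PX.1 hf
    exact top_zero none f (fun i => h2 0 i.succ (Fin.succ_pos i)) (one_zero' f hs ht h)
  by_cases hn : n ≤ mu 0
  swap
  · rw [if_neg hn]
    have h1 : PX (m + 1) n t mu = ⊥ := by
      rw [eq_bot_iff]
      intro f hf
      rw [Submodule.mem_bot]
      apply hzero f hf
      intro w hw
      by_contra hcw
      exact hn (hgood f hf w hw hcw).2.1
    unfold NX
    rw [h1, finrank_bot]
  rw [if_pos hn]
  set I := (LT (mu 0 - n) (∑ i, tl mu i)).filter (fun P => Multiset.card P ≤ t) with hI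
  have hex : ∀ P : I, ∃ lab : Fin t → ℕ × ℕ, (Finset.univ : Finset (Fin t)).val.map lab =
      Multiset.replicate (t - Multiset.card P.1) (0, 0) + P.1 := by
    rintro ⟨P, hP⟩
    exact exists_lab P (Finset.mem_filter.1 hP).2
  choose D hD using hex
  have hG : ∀ P : I, Module.finrank ℂ (GP m (Fin t) (D P) (tl mu)) = G m (tl mu) P.1 := by
    intro P
    rw [h0 m (Fin t) (D P) (tl mu), hD P]
    apply h4
    intro x hx
    rw [Multiset.eq_of_mem_replicate hx]
  let Φ : PX (m + 1) n t mu →ₗ[ℂ] ((P : I) → GP m (Fin t) (D P) (tl mu)) :=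
    LinearMap.pi fun P => ((cL n (D P)).comp (PX (m + 1) n t mu).subtype).codRestrict
      (GP m (Fin t) (D P) (tl mu)) fun f => cL_mem f.2 (D P)
  have hΦ : ∀ (f : PX (m + 1) n t mu) (P : I), ((Φ f P : GP m (Fin t) (D P) (tl mu)) :
      MvPolynomial (Fin m × Fin t) ℂ) = cL n (D P) f.1 := fun f P => rfl
  have hinj : Function.Injective Φ := by
    rw [← LinearMap.ker_eq_bot, LinearMap.ker_eq_bot']
    intro f hf
    apply Subtype.ext
    rw [ZeroMemClass.coe_zero]
    apply hzero f.1 f.2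
    intro w hgw
    by_contra hw
    obtain ⟨hw1, -, hw2⟩ := hgood f.1 f.2 w hgw hw
    obtain ⟨-, -, hsym, -⟩ := mem_PX.1 f.2
    have hPI : lbs (lbl w) ∈ I := Finset.mem_filter.2 ⟨hw2, card_lbs_le _⟩
    have hD' := hD ⟨lbs (lbl w), hPI⟩
    obtain ⟨e, he⟩ := exists_perm_of_map_eq (D ⟨lbs (lbl w), hPI⟩) (lbl w)
      (by rw [hD', ← lbs_add])
    -- the permuted exponent
    set w' : Fin (m + 1) × Option (Fin t) →₀ ℕ :=
      w.mapDomain (fun p : Fin (m + 1) × Option (Fin t) => (p.1, p.2.map e)) with hw'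
    have h5 : ∀ (i : Fin (m + 1)) (j : Fin t), w' (i, some (e j)) = w (i, some j) := fun i j =>
      Finsupp.mapDomain_apply (oinj e) w (i, some j)
    have h6 : ∀ i : Fin (m + 1), w' (i, none) = w (i, none) := fun i =>
      Finsupp.mapDomain_apply (oinj e) w (i, none)
    have h7 : ∀ j, D ⟨lbs (lbl w), hPI⟩ (e j) = lbl w j := fun j => (congrFun he j).symm
    have h8 : Rd n (fun j => (D ⟨lbs (lbl w), hPI⟩ j).1) w' := by
      refine ⟨by rw [h6, hw1], fun j => ?_, fun i => by rw [h6]; exact hgw.1 i⟩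
      obtain ⟨j', rfl⟩ := e.surjective j
      rw [h5]
      exact (congrArg Prod.fst (h7 j')).symm
    have h9 : cdeg (res1 w') = fun j => (D ⟨lbs (lbl w), hPI⟩ j).2 := by
      funext j
      obtain ⟨j', rfl⟩ := e.surjective j
      rw [h7]
      show ∑ i, res1 w' (i, e j') = ∑ i : Fin m, w (i.succ, some j')
      refine Finset.sum_congr rfl fun i _ => ?_
      rw [res1_apply, h5]
    have h10 : coeff (res1 w') (cL n (D ⟨lbs (lbl w), hPI⟩) f.1) = 0 := by
      rw [← hΦ f ⟨lbs (lbl w), hPI⟩, hf]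
      rfl
    rw [cL, LinearMap.comp_apply, coeff_cmp, if_pos h9, coeff_cz, ex1_res1 h8, hw',
      coeff_sym f.1 hsym] at h10
    exact hw h10
  calc NX (m + 1) n t mu
      ≤ Module.finrank ℂ ((P : I) → GP m (Fin t) (D P) (tl mu)) :=
        LinearMap.finrank_le_finrank_of_injective hinj
    _ = ∑ P : I, Module.finrank ℂ (GP m (Fin t) (D P) (tl mu)) := Module.finrank_pi_fintype ℂ
    _ = ∑ P : I, G m (tl mu) P.1 := Finset.sum_congr rfl fun P _ => hG P
    _ = ∑ P ∈ I, G m (tl mu) P := Finset.sum_coe_sort I (fun P => G m (tl mu) P)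
    _ ≤ ∑ P ∈ LT (mu 0 - n) (∑ i, tl mu i), G m (tl mu) P :=
        Finset.sum_le_sum_of_subset (Finset.filter_subset _ _)

/-- **[T1]** -/
theorem upG : UpG := upG_of H613.trans H613.pure

end Vale.Agent.P181.ST.H742
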